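import Mathlib

/-!
k-sets and halving lines against the difference set.
-/

namespace Vale.Agent.Results.P065.DifferenceSetBound

open Finset Filter Topology
open scoped Pointwise

/-- The signed area form. -/
lemma det_lt_card (P : Finset (ℝ × ℝ)) (d p p' : ℝ × ℝ) (hp' : p' ∈ P)
    (h : 0 < d.1 * (p' - p).2 - d.2 * (p' - p).1)
    (bal : {r ∈ (P : Set (ℝ × ℝ)) | 0 < d.1 * (r - p).2 - d.2 * (r - p).1}.ncard =
      {r ∈ (P : Set (ℝ × ℝ)) | d.1 * (r - p).2 - d.2 * (r - p).1 < 0}.ncard)
    (bal' : {r ∈ (P : Set (ℝ × ℝ)) | 0 < d.1 * (r - p').2 - d.2 * (r - p').1}.ncard =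
      {r ∈ (P : Set (ℝ × ℝ)) | d.1 * (r - p').2 - d.2 * (r - p').1 < 0}.ncard) : False := by
  have fin : ∀ (Q : ℝ × ℝ → Prop), {r ∈ (P : Set (ℝ × ℝ)) | Q r}.Finite := fun Q =>
    P.finite_toSet.subset fun r hr => hr.1
  simp only [Prod.fst_sub, Prod.snd_sub] at *
  have h1 : {r ∈ (P : Set (ℝ × ℝ)) | 0 < d.1 * (r.2 - p'.2) - d.2 * (r.1 - p'.1)}.ncard <
      {r ∈ (P : Set (ℝ × ℝ)) | 0 < d.1 * (r.2 - p.2) - d.2 * (r.1 - p.1)}.ncard := by
    refine Set.ncard_lt_ncard ?_ (fin _)
    rw [Set.ssubset_iff_of_subset (show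
      {r ∈ (P : Set (ℝ × ℝ)) | 0 < d.1 * (r.2 - p'.2) - d.2 * (r.1 - p'.1)} ⊆
        {r ∈ (P : Set (ℝ × ℝ)) | 0 < d.1 * (r.2 - p.2) - d.2 * (r.1 - p.1)} from
      fun r hr => ⟨hr.1, by linarith [hr.2]⟩)]
    exact ⟨p', ⟨hp', h⟩, fun hr => absurd hr.2 (by linarith)⟩
  have h2 : {r ∈ (P : Set (ℝ × ℝ)) | d.1 * (r.2 - p.2) - d.2 * (r.1 - p.1) < 0}.ncard ≤
      {r ∈ (P : Set (ℝ × ℝ)) | d.1 * (r.2 - p'.2) - d.2 * (r.1 - p'.1) < 0}.ncard :=
    Set.ncard_le_ncard (fun r hr => ⟨hr.1, by linarith [hr.2]⟩) (fin _)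
  omega

theorem result :
    ∀ P : Finset (ℝ × ℝ),
      (∀ k : ℕ, {S : Finset (ℝ × ℝ) | S ⊆ P ∧ S.card = k ∧ ∃ a b c : ℝ,
          (∀ p ∈ S, a * p.1 + b * p.2 < c) ∧
          ∀ p ∈ P, p ∉ S → c < a * p.1 + b * p.2}.ncard ≤ (P - P).card + 2) ∧
      ((∀ p ∈ P, ∀ q ∈ P, ∀ r ∈ P, p ≠ q → p ≠ r → q ≠ r →
          (q - p).1 * (r - p).2 - (q - p).2 * (r - p).1 ≠ 0) →
        {e : (ℝ × ℝ) × (ℝ × ℝ) | e.1 ∈ P ∧ e.2 ∈ P ∧ e.1 ≠ e.2 ∧
          {r ∈ (P : Set (ℝ × ℝ)) |
            0 < (e.2 - e.1).1 * (r - e.1).2 - (e.2 - e.1).2 * (r - e.1).1}.ncard =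
          {r ∈ (P : Set (ℝ × ℝ)) |
            (e.2 - e.1).1 * (r - e.1).2 - (e.2 - e.1).2 * (r - e.1).1 < 0}.ncard}.ncard ≤
          (P - P).card) ∧
      ∀ K : ℝ, ((P + P).card : ℝ) ≤ K * P.card → ((P - P).card : ℝ) ≤ K ^ 2 * P.card := by
  classical
  intro P
  refine ⟨fun k => ?_, fun gp => ?_, fun K hK => ?_⟩
  · -- the critical slopes
    set D := (P - P).filter fun d => d.2 ≠ 0
    set T := D.image fun d => -d.1 / d.2
    have hT : 2 * T.card ≤ (P - P).card := by
      refine le_trans ?_ (card_filter_le _ (fun d : ℝ × ℝ => d.2 ≠ 0))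
      refine mul_card_image_le_card (f := fun d : ℝ × ℝ => -d.1 / d.2) D 2 fun c hc => ?_
      obtain ⟨d, hd, rfl⟩ := mem_image.1 hc
      have hd' : -d ∈ D := by
        simp only [D, mem_filter] at hd ⊢
        obtain ⟨hdm, hd2⟩ := hd
        obtain ⟨x, hx, y, hy, rfl⟩ := mem_sub.1 hdm
        exact ⟨mem_sub.2 ⟨y, hy, x, hx, (neg_sub x y).symm⟩, by rw [Prod.snd_neg]; exact neg_ne_zero.2 hd2⟩
      refine one_lt_card.2 ⟨d, mem_filter.2 ⟨hd, rfl⟩, -d, mem_filter.2 ⟨hd', ?_⟩, ?_⟩
      · simp only [Prod.fst_neg, Prod.snd_neg]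
        rw [neg_div_neg_eq]
      · intro h
        have := congrArg Prod.snd h
        simp only [D, mem_filter] at hd
        simp only [Prod.snd_neg] at this
        exact hd.2 (by linarith)
    let Sep : Finset (ℝ × ℝ) → Bool → ℝ → Prop := fun S σ t =>
      ∀ p ∈ S, ∀ q ∈ P, q ∉ S →
        if σ then (p.1 - q.1) + t * (p.2 - q.2) < 0 else 0 < (p.1 - q.1) + t * (p.2 - q.2)
    set 𝒮 := {S : Finset (ℝ × ℝ) | S ⊆ P ∧ S.card = k ∧ ∃ a b c : ℝ,
          (∀ p ∈ S, a * p.1 + b * p.2 < c) ∧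
          ∀ p ∈ P, p ∉ S → c < a * p.1 + b * p.2}
    have hdir : ∀ S ∈ 𝒮, ∃ σ t, Sep S σ t := by
      rintro S ⟨-, -, a, b, c, h1, h2⟩
      have e1 : ∀ᶠ x in 𝓝 a, ∀ p ∈ S, x * p.1 + b * p.2 < c :=
        (eventually_all_finset S).2 fun p hp =>
          Tendsto.eventually_lt_const (h1 p hp) ((by fun_prop : Continuous fun x : ℝ =>
            x * p.1 + b * p.2).tendsto a)
      have e2 : ∀ᶠ x in 𝓝 a, ∀ p ∈ P, p ∉ S → c < x * p.1 + b * p.2 := by
        refine (eventually_all_finset P).2 fun p hp => ?_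
        by_cases hpS : p ∈ S
        · exact Eventually.of_forall fun x h => absurd hpS h
        · exact (Tendsto.eventually_const_lt (h2 p hp hpS) ((by fun_prop : Continuous fun x : ℝ =>
            x * p.1 + b * p.2).tendsto a)).mono fun x hx _ => hx
      obtain ⟨x, hx0, hx1, hx2⟩ : ∃ x, x ≠ 0 ∧ (∀ p ∈ S, x * p.1 + b * p.2 < c) ∧
          ∀ p ∈ P, p ∉ S → c < x * p.1 + b * p.2 := by
        rcases eq_or_ne a 0 with rfl | ha
        · obtain ⟨x, hx, h⟩ := (eventually_mem_nhdsWithin.and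
            ((e1.and e2).filter_mono nhdsWithin_le_nhds)).exists (f := 𝓝[≠] (0 : ℝ))
          exact ⟨x, hx, h⟩
        · exact ⟨a, ha, h1, h2⟩
      refine ⟨decide (0 < x), b / x, fun p hp q hq hqS => ?_⟩
      have h := (hx1 p hp).trans (hx2 q hq hqS)
      have e : (p.1 - q.1) + b / x * (p.2 - q.2) =
          ((x * p.1 + b * p.2) - (x * q.1 + b * q.2)) / x := by
        field_simp
        ring
      rw [e]
      rcases lt_or_gt_of_ne hx0 with hx | hx
      · simp only [not_lt.2 hx.le, decide_false, Bool.false_eq_true, if_false]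
        exact div_pos_of_neg_of_neg (sub_neg.2 h) hx
      · simp only [hx, decide_true, if_true]
        exact div_neg_of_neg_of_pos (sub_neg.2 h) hx
    choose! σ t hst using hdir
    let code : Finset (ℝ × ℝ) → Bool × ℕ := fun S =>
      (σ S, (T.filter fun c => c < t S).card)
    have key : ∀ S ∈ 𝒮, ∀ S' ∈ 𝒮, σ S = σ S' → t S ≤ t S' →
        (T.filter fun c => c < t S).card = (T.filter fun c => c < t S').card → S = S' := by
      intro S hS S' hS' hσ hle hcard
      by_contra hne
      obtain ⟨p, hp, hp'⟩ : ∃ p ∈ S, p ∉ S' := not_subset.1 fun h =>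
        hne (eq_of_subset_of_card_le h (by rw [hS.2.1, hS'.2.1]))
      obtain ⟨q, hq, hq'⟩ : ∃ q ∈ S', q ∉ S := not_subset.1 fun h =>
        hne (eq_of_subset_of_card_le h (by rw [hS.2.1, hS'.2.1])).symm
      have h1 := hst S hS p hp q (hS'.1 hq) hq'
      have h2 := hst S' hS' q hq p (hS.1 hp) hp'
      rw [← hσ] at h2
      -- a root of the affine function lies between the two parameters
      set u := p.1 - q.1 with hu
      set v := p.2 - q.2 with hv
      have hqp1 : q.1 - p.1 = -u := by ring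
      have hqp2 : q.2 - p.2 = -v := by ring
      rw [hqp1, hqp2] at h2
      have hsgn : (u + t S * v) * (u + t S' * v) < 0 := by
        cases hb : σ S <;> simp only [hb, Bool.false_eq_true, if_false, if_true] at h1 h2
        · exact mul_neg_of_pos_of_neg h1 (by linarith)
        · exact mul_neg_of_neg_of_pos h1 (by linarith)
      have hv0 : v ≠ 0 := by
        intro h0
        rw [h0, mul_zero, mul_zero, add_zero] at hsgn
        nlinarith [mul_self_nonneg u]
      have hroot : t S < -u / v ∧ -u / v < t S' := by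
        rcases lt_or_gt_of_ne hv0 with hv1 | hv1
        · rw [lt_div_iff_of_neg hv1, div_lt_iff_of_neg hv1]
          rcases mul_neg_iff.1 hsgn with ⟨a1, a2⟩ | ⟨a1, a2⟩
          · constructor <;> linarith
          · exfalso; nlinarith
        · rw [lt_div_iff₀ hv1, div_lt_iff₀ hv1]
          rcases mul_neg_iff.1 hsgn with ⟨a1, a2⟩ | ⟨a1, a2⟩
          · exfalso; nlinarith
          · constructor <;> linarith
      have hc : -u / v ∈ T := by
        refine mem_image.2 ⟨(u, v), mem_filter.2 ⟨mem_sub.2 ⟨p, hS.1 hp, q, hS'.1 hq, ?_⟩, hv0⟩, rfl⟩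
        rfl
      have hlt : (T.filter fun c => c < t S).card < (T.filter fun c => c < t S').card := by
        refine card_lt_card ((ssubset_iff_of_subset fun c hc' => ?_).2
          ⟨-u / v, mem_filter.2 ⟨hc, hroot.2⟩, fun h => by
            have := (mem_filter.1 h).2
            linarith [hroot.1]⟩)
        simp only [mem_filter] at hc' ⊢
        exact ⟨hc'.1, by linarith⟩
      omega
    have hsub : code '' 𝒮 ⊆ ↑((univ : Finset Bool) ×ˢ range (T.card + 1)) := by
      rintro _ ⟨S, -, rfl⟩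
      simp only [coe_product, Set.mem_prod, coe_univ, Set.mem_univ, mem_coe, mem_range, true_and,
        code]
      exact Nat.lt_succ_of_le (card_filter_le _ _)
    have hinj : Set.InjOn code 𝒮 := by
      intro S hS S' hS' h
      simp only [code, Prod.mk.injEq] at h
      rcases le_total (t S) (t S') with hle | hle
      · exact key S hS S' hS' h.1 hle h.2
      · exact (key S' hS' S hS h.1.symm hle h.2.symm).symm
    calc 𝒮.ncard = (code '' 𝒮).ncard := (Set.InjOn.ncard_image hinj).symm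
      _ ≤ ((univ : Finset Bool) ×ˢ range (T.card + 1)).card := by
          rw [← Set.ncard_coe_finset]
          exact Set.ncard_le_ncard hsub (Finset.finite_toSet _)
      _ ≤ (P - P).card + 2 := by
          rw [card_product, card_univ, Fintype.card_bool, card_range]
          omega
  · -- one halving pair for each difference
    rw [← Set.ncard_coe_finset (P - P)]
    refine Set.ncard_le_ncard_of_injOn (fun e => e.2 - e.1) (fun e he => ?_) ?_
      (Finset.finite_toSet _)
    · exact mem_coe.2 (sub_mem_sub he.2.1 he.1)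
    rintro ⟨p, q⟩ ⟨hp, hq, hpq, bal⟩ ⟨p', q'⟩ ⟨hp', hq', -, bal'⟩ h
    simp only at hp hq hpq bal hp' hq' bal' h
    rw [← h] at bal'
    by_contra hne
    have hpp : p ≠ p' := fun hh => hne (by
      subst hh
      rw [sub_left_inj.1 h])
    have c0 : (q - p).1 * (p' - p).2 - (q - p).2 * (p' - p).1 ≠ 0 := by
      by_cases hq'' : p' = q
      · -- then the third point is the end of the second pair
        subst hq''
        have h' : q' = p' + (p' - p) := by rw [h]; abel
        refine absurd ?_ (gp p hp p' hp' q' hq' hpp ?_ ?_)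
        · rw [h']
          simp only [Prod.fst_sub, Prod.snd_sub, Prod.fst_add, Prod.snd_add]
          ring
        · intro hh
          rw [h'] at hh
          apply hpp
          ext
          · have := congrArg Prod.fst hh
            simp only [Prod.fst_sub, Prod.fst_add] at this
            linarith
          · have := congrArg Prod.snd hh
            simp only [Prod.snd_sub, Prod.snd_add] at this
            linarith
        · intro hh
          apply hpp
          have : p' - p = 0 := by rw [h, hh, sub_self]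
          exact (sub_eq_zero.1 this).symm
      · exact gp p hp q hq p' hp' hpq hpp (Ne.symm hq'')
    rcases lt_or_gt_of_ne c0 with hc | hc
    · refine det_lt_card P (q - p) p' p hp ?_ bal' bal
      simp only [Prod.fst_sub, Prod.snd_sub] at hc ⊢
      linarith
    · exact det_lt_card P (q - p) p p' hp' hc bal bal'
  · rcases P.eq_empty_or_nonempty with rfl | hP
    · simp
    have h := ruzsa_triangle_inequality_sub_add_add P P P
    have hn : (0 : ℝ) < P.card := by exact_mod_cast hP.card_pos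
    have h' := (Nat.cast_le (α := ℝ)).2 h
    push_cast at h'
    refine le_of_mul_le_mul_right (h'.trans ?_) hn
    calc ((P + P).card : ℝ) * (P + P).card ≤ (K * P.card) * (K * P.card) :=
          mul_le_mul hK hK (Nat.cast_nonneg _) ((Nat.cast_nonneg _).trans hK)
      _ = K ^ 2 * P.card * P.card := by ring

end Vale.Agent.Results.P065.DifferenceSetBound
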